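import Vale.Agent.P167.H490.Log2

/-!
# P167, block E0b: `Approx → Exhausts`
-/

open Set Topology Complex Filter

namespace Vale.Agent.P167.H490

open Vale.Agent.P167.E6
open Vale.Agent.P153.R2.Final (dom circ toC)

theorem isClosed_cface (δ : ℝ) (f : ℤ × ℤ) : IsClosed (cface δ f) := by
  have h : cface δ f = {z : ℂ | δ * f.1 ≤ z.re} ∩ {z : ℂ | z.re ≤ δ * (f.1 + 1)} ∩
      {z : ℂ | δ * f.2 ≤ z.im} ∩ {z : ℂ | z.im ≤ δ * (f.2 + 1)} := by
    ext z
    simp only [cface, mem_ofPred_eq, mem_inter_iff]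
    tauto
  rw [h]
  exact (((isClosed_le continuous_const continuous_re).inter
    (isClosed_le continuous_re continuous_const)).inter
    (isClosed_le continuous_const continuous_im)).inter
    (isClosed_le continuous_im continuous_const)

/-- A cyclic sequence which is not constant has a jump. -/
theorem jump (P : Fin 4 → Prop) {a b : Fin 4} (ha : P a) (hb : ¬ P b) :
    ∃ r, P r ∧ ¬ P (r - 1) := by
  by_contra hcon
  push Not at hcon
  have h1 : ∀ r, P r → P (r - 1) := hcon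
  have h2 : ∀ r, P r → P (r + 1) := by
    intro r hr
    have := h1 _ (h1 _ (h1 _ hr))
    have e : r - 1 - 1 - 1 = r + 1 := by fin_cases r <;> rfl
    rwa [e] at this
  have h3 : ∀ k : Fin 4, P (a + k) := by
    intro k
    fin_cases k
    · simpa using ha
    · exact h2 _ ha
    · have := h2 _ (h2 _ ha)
      rwa [add_assoc] at this
    · have := h2 _ (h2 _ (h2 _ ha))
      rwa [add_assoc, add_assoc] at this
  apply hb
  have := h3 (b - a)
  rwa [add_sub_cancel] at this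

/-- Between an enclosed and a not enclosed face which meet at `w` there is a vertex of the polygon. -/
theorem vertex_near {δ : ℝ} (hδ : 0 < δ) {n : ℕ} {p : ZMod n → ℤ × ℤ} {S : Finset (ℤ × ℤ)}
    (hS : Encloses p S) {f g : ℤ × ℤ} (hf : f ∈ S) (hg : g ∉ S) {w : ℂ} (hwf : w ∈ cface δ f)
    (hwg : w ∈ cface δ g) : ∃ i, dist ((δ : ℂ) * pt (p i)) w ≤ 2 * δ := by
  have hle : ∀ a b : ℤ, ∀ x : ℝ, δ * a ≤ x → x ≤ δ * (b + 1) → a ≤ b + 1 := by
    intro a b x h1 h2
    have : δ * (a : ℝ) ≤ δ * ((b + 1 : ℤ) : ℝ) := by push_cast; linarith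
    exact_mod_cast le_of_mul_le_mul_left this hδ
  obtain ⟨f1, f2, f3, f4⟩ := hwf
  obtain ⟨g1, g2, g3, g4⟩ := hwg
  have a1 := hle _ _ _ f1 g2
  have a2 := hle _ _ _ g1 f2
  have a3 := hle _ _ _ f3 g4
  have a4 := hle _ _ _ g3 f4
  set v : ℤ × ℤ := (max f.1 g.1, max f.2 g.2) with hv
  have hface : ∀ e : ℤ × ℤ, (e.1 = v.1 ∨ e.1 = v.1 - 1) → (e.2 = v.2 ∨ e.2 = v.2 - 1) →
      ∃ r, face v r = e := by
    rintro e (h1 | h1) (h2 | h2)
    · exact ⟨0, by rw [face_eq]; ext <;> simp [off, h1, h2]⟩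
    · exact ⟨3, by rw [face_eq]; ext <;> simp [off, h1, h2]; ring⟩
    · exact ⟨1, by rw [face_eq]; ext <;> simp [off, h1, h2]; ring⟩
    · exact ⟨2, by rw [face_eq]; ext <;> simp [off, h1, h2] <;> ring⟩
  have hv1 : v.1 = max f.1 g.1 := rfl
  have hv2 : v.2 = max f.2 g.2 := rfl
  obtain ⟨r1, hr1⟩ := hface f (by omega) (by omega)
  obtain ⟨r2, hr2⟩ := hface g (by omega) (by omega)
  obtain ⟨r, hra, hrb⟩ := jump (fun r => face v r ∈ S) (a := r1) (b := r2)
    (by rw [hr1]; exact hf) (by rw [hr2]; exact hg)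
  obtain ⟨i, hi, -⟩ := (hS v r).2 ⟨hra, hrb⟩
  refine ⟨i, ?_⟩
  rw [hi, Complex.dist_eq]
  refine (Complex.norm_le_abs_re_add_abs_im _).trans ?_
  have hre : ((δ : ℂ) * pt v - w).re = δ * v.1 - w.re := by simp [pt]
  have him : ((δ : ℂ) * pt v - w).im = δ * v.2 - w.im := by simp [pt]
  rw [hre, him]
  have b1 : (f.1 : ℝ) ≤ v.1 ∧ (v.1 : ℝ) ≤ f.1 + 1 :=
    ⟨by exact_mod_cast (show f.1 ≤ v.1 by omega), by exact_mod_cast (show v.1 ≤ f.1 + 1 by omega)⟩
  have b2 : (f.2 : ℝ) ≤ v.2 ∧ (v.2 : ℝ) ≤ f.2 + 1 :=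
    ⟨by exact_mod_cast (show f.2 ≤ v.2 by omega), by exact_mod_cast (show v.2 ≤ f.2 + 1 by omega)⟩
  have c1 := mul_le_mul_of_nonneg_left b1.1 hδ.le
  have c2 := mul_le_mul_of_nonneg_left b1.2 hδ.le
  have c3 := mul_le_mul_of_nonneg_left b2.1 hδ.le
  have c4 := mul_le_mul_of_nonneg_left b2.2 hδ.le
  have d1 : |δ * (v.1 : ℝ) - w.re| ≤ δ := abs_le.2 ⟨by linarith, by linarith⟩
  have d2 : |δ * (v.2 : ℝ) - w.im| ≤ δ := abs_le.2 ⟨by linarith, by linarith⟩
  linarith

/-- A connected bounded set at a distance from the vertices of the polygon which contains an enclosed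
point is enclosed. -/
theorem subset_region {δ : ℝ} (hδ : 0 < δ) {n : ℕ} {p : ZMod n → ℤ × ℤ} {S : Finset (ℤ × ℤ)}
    (hS : Encloses p S) {K : Set ℂ} (hK : IsPreconnected K) (hb : Bornology.IsBounded K)
    {z₀ : ℂ} (hz : z₀ ∈ K) (hz' : z₀ ∈ region δ S)
    (hfar : ∀ w ∈ K, ∀ i, 2 * δ < dist ((δ : ℂ) * pt (p i)) w) : K ⊆ region δ S := by
  classical
  obtain ⟨R, hR⟩ := hb.subset_closedBall 0
  set m : ℤ := ⌈R / δ⌉ + 1 with hm
  set T : Finset (ℤ × ℤ) := (Finset.Icc (-m) m) ×ˢ (Finset.Icc (-m) m) with hT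
  set B : Set ℂ := ⋃ f ∈ T \ S, cface δ f with hB
  have hBc : IsClosed B := by
    rw [hB]
    exact isClosed_biUnion_finset fun f _ => isClosed_cface δ f
  have hA : region δ S = ⋃ f ∈ S, cface δ f := by
    ext z
    simp only [mem_iUnion, exists_prop]
    exact Iff.rfl
  have hAc : IsClosed (region δ S) := by
    rw [hA]
    exact isClosed_biUnion_finset fun f _ => isClosed_cface δ f
  have hcov : K ⊆ region δ S ∪ B := by
    intro w hw
    have hn : ‖w‖ ≤ R := by simpa using hR hw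
    set f : ℤ × ℤ := (⌊w.re / δ⌋, ⌊w.im / δ⌋) with hf
    have key : ∀ x : ℝ, |x| ≤ R → δ * (⌊x / δ⌋ : ℝ) ≤ x ∧ x ≤ δ * ((⌊x / δ⌋ : ℝ) + 1) ∧
        ⌊x / δ⌋ ∈ Finset.Icc (-m) m := by
      intro x hx
      have h1 := Int.floor_le (x / δ)
      have h2 := (Int.lt_floor_add_one (x / δ)).le
      rw [le_div_iff₀ hδ] at h1
      rw [div_le_iff₀ hδ] at h2
      refine ⟨by linarith, by linarith, ?_⟩
      have h3 : R / δ ≤ (m : ℝ) - 1 := by
        rw [hm]; push_cast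
        linarith [Int.le_ceil (R / δ)]
      have h4 : |x / δ| ≤ R / δ := by
        rw [abs_div, abs_of_pos hδ]
        exact div_le_div_of_nonneg_right hx hδ.le
      have h5 := abs_le.1 (h4.trans h3)
      rw [Finset.mem_Icc]
      constructor
      · rw [Int.le_floor]; push_cast; linarith [h5.1]
      · have : (⌊x / δ⌋ : ℝ) ≤ m := (Int.floor_le _).trans (by linarith [h5.2])
        exact_mod_cast this
    have k1 := key w.re ((Complex.abs_re_le_norm w).trans hn)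
    have k2 := key w.im ((Complex.abs_im_le_norm w).trans hn)
    have hwf : w ∈ cface δ f := ⟨k1.1, k1.2.1, k2.1, k2.2.1⟩
    by_cases hfS : f ∈ S
    · exact Or.inl ⟨f, hfS, hwf⟩
    · right
      rw [hB]
      simp only [mem_iUnion, Finset.mem_sdiff, exists_prop]
      exact ⟨f, ⟨Finset.mem_product.2 ⟨k1.2.2, k2.2.2⟩, hfS⟩, hwf⟩
  intro w hw
  by_contra hwr
  have hwB : w ∈ B := (hcov hw).resolve_left hwr
  obtain ⟨x, hxK, hxA, hxB⟩ := isPreconnected_closed_iff.1 hK _ _ hAc hBc hcov ⟨z₀, hz, hz'⟩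
    ⟨w, hw, hwB⟩
  obtain ⟨f, hfS, hxf⟩ := hxA
  rw [hB] at hxB
  simp only [mem_iUnion, Finset.mem_sdiff, exists_prop] at hxB
  obtain ⟨g, ⟨-, hgS⟩, hxg⟩ := hxB
  obtain ⟨i, hi⟩ := vertex_near hδ hS hfS hgS hxf hxg
  exact absurd hi (not_le.2 (hfar x hxK i))

/-- Block E0b. -/
theorem exhausts_of_approx {Φ : (ℝ × ℝ) ≃ₜ (ℝ × ℝ)} {δ : ℕ → ℝ} {N k : ℕ → ℕ}
    {p : ∀ n, ZMod (N n) → ℤ × ℤ} {S : ℕ → Finset (ℤ × ℤ)} (h : Approx Φ δ N k p S) :
    Exhausts Φ δ S := by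
  intro K hKD hK
  rcases K.eq_empty_or_nonempty with rfl | hne
  · exact Filter.Eventually.of_forall fun n => empty_subset _
  set c : ℝ → ℂ := fun t => toC (Φ (circ t)) with hc
  have hcc : Continuous c := continuous_toC.comp (Φ.continuous.comp continuous_circ)
  -- the radius
  set g : ℂ → ℝ := fun z => ‖toC (Φ.symm (z.re, z.im))‖ with hg
  have hgc : Continuous g := by
    refine continuous_norm.comp (continuous_toC.comp (Φ.symm.continuous.comp ?_))
    fun_prop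
  have hpair : ∀ x : ℝ × ℝ, ((toC x).re, (toC x).im) = x := fun x => rfl
  have hnorm : ∀ x : ℝ × ℝ, ‖toC x‖ ^ 2 = x.1 ^ 2 + x.2 ^ 2 := by
    intro x
    rw [← Complex.normSq_eq_norm_sq, Complex.normSq_apply]
    show x.1 * x.1 + x.2 * x.2 = _
    ring
  have hgK : ∀ z ∈ K, g z < 1 := by
    intro z hz
    obtain ⟨x, ⟨y, hy, rfl⟩, rfl⟩ := hKD hz
    show ‖toC (Φ.symm ((toC (Φ y)).re, (toC (Φ y)).im))‖ < 1
    rw [hpair, Homeomorph.symm_apply_apply]
    have h1 := hnorm y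
    have h2 : y.1 ^ 2 + y.2 ^ 2 < 1 := hy
    nlinarith [norm_nonneg (toC y)]
  obtain ⟨z₁, hz₁K, hz₁⟩ := hK.exists_isMaxOn hne hgc.continuousOn
  set r : ℝ := g z₁ with hr
  have hr1 : r < 1 := hgK _ hz₁K
  have hr0 : 0 ≤ r := norm_nonneg _
  set ι : ℂ → ℂ := fun w => toC (Φ (w.re, w.im)) with hι
  have hιc : Continuous ι := by
    refine continuous_toC.comp (Φ.continuous.comp ?_)
    fun_prop
  set Kr : Set ℂ := ι '' Metric.closedBall 0 r with hKr
  have hKrc : IsCompact Kr := (isCompact_closedBall 0 r).image hιc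
  have hKrp : IsPreconnected Kr :=
    (convex_closedBall (0 : ℂ) r).isPreconnected.image _ hιc.continuousOn
  have hsub : K ⊆ Kr := by
    intro z hz
    refine ⟨toC (Φ.symm (z.re, z.im)), ?_, ?_⟩
    · rw [mem_closedBall_zero_iff]
      exact hz₁ hz
    · show toC (Φ ((toC (Φ.symm (z.re, z.im))).re, (toC (Φ.symm (z.re, z.im))).im)) = z
      rw [hpair, Homeomorph.apply_symm_apply]
      rfl
  set z₀ : ℂ := toC (Φ 0) with hz₀
  have hz₀K : z₀ ∈ Kr := ⟨0, Metric.mem_closedBall_self hr0, rfl⟩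
  -- the distance
  set C : Set ℂ := c '' Icc 0 (2 * Real.pi) with hC
  have hCc : IsCompact C := isCompact_Icc.image hcc
  have hdisj : Disjoint Kr C := by
    rw [Set.disjoint_left]
    rintro _ ⟨w, hw, rfl⟩ ⟨t, -, ht⟩
    have h1 : circ t = (w.re, w.im) := Φ.injective (toC_injective ht)
    have h2 : ‖w‖ ^ 2 = 1 := by
      have h3 := hnorm (w.re, w.im)
      rw [show toC (w.re, w.im) = w from rfl, ← h1] at h3
      rw [h3]
      show Real.cos t ^ 2 + Real.sin t ^ 2 = 1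
      rw [add_comm]; exact Real.sin_sq_add_cos_sq t
    have h4 : ‖w‖ ≤ r := by simpa using hw
    nlinarith [norm_nonneg w]
  obtain ⟨d', hd', hd''⟩ := Metric.exists_pos_forall_lt_edist hKrc hCc.isClosed hdisj
  set d : ℝ := (d' : ℝ) with hd
  have hd0 : 0 < d := hd'
  have hdist : ∀ x ∈ Kr, ∀ y ∈ C, d < dist x y := by
    intro x hx y hy
    have := hd'' x hx y hy
    rw [edist_nndist] at this
    exact_mod_cast this
  obtain ⟨h1, h2, h3⟩ := h
  have hδe : ∀ᶠ n in atTop, δ n < d / 8 := h2.eventually (gt_mem_nhds (by positivity))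
  filter_upwards [hδe, h3 (d / 4) (by positivity)] with n hδn hs
  obtain ⟨s, hsm, hs0, -, hsN, hclose⟩ := hs
  obtain ⟨hδ0, hk0, hkN, hpol, henc⟩ := h1 n
  have hN0 : 0 < N n := by omega
  have : NeZero (N n) := ⟨hN0.ne'⟩
  refine hsub.trans ?_
  have hsI : ∀ i ≤ N n, s i ∈ Icc (0 : ℝ) (2 * Real.pi) := fun i hi =>
    ⟨by rw [← hs0]; exact hsm (Nat.zero_le i), by rw [← hsN]; exact hsm hi⟩
  -- the centre is enclosed
  have hcen : z₀ ∈ region (δ n) (S n) := by
    by_contra hnot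
    have hsum := sum_polygon hδ0 (p n) (S n) hpol henc hnot
    have hc0 : Continuous fun t => c t - z₀ := hcc.sub continuous_const
    have hne0 : ∀ t, c t - z₀ ≠ 0 := by
      intro t ht
      have h4 : c t = z₀ := sub_eq_zero.1 ht
      exact circ_ne_zero t (Φ.injective (toC_injective h4))
    obtain ⟨L, hL, hL'⟩ := exists_log _ hc0 hne0
    have hsl := sum_log_eq (fun t => c t - z₀) L hc0 hL hL' (N n) hN0
      (fun i => (δ n : ℂ) * pt (p n (i : ℕ)) - z₀) s hsm (by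
        intro i hi t ht
        have h5 := hclose i hi t ht
        have htI : t ∈ Icc (0 : ℝ) (2 * Real.pi) :=
          ⟨(hsI i hi.le).1.trans ht.1, ht.2.trans (hsI (i + 1) hi).2⟩
        have h6 := hdist z₀ hz₀K (c t) ⟨t, htI, rfl⟩
        rw [Complex.dist_eq] at h5 h6
        have h7 : ‖z₀ - c t‖ ≤ ‖(δ n : ℂ) * pt (p n (i : ℕ)) - c t‖ +
            ‖(δ n : ℂ) * pt (p n (i : ℕ)) - z₀‖ := by
          have : z₀ - c t = ((δ n : ℂ) * pt (p n (i : ℕ)) - c t) -
            ((δ n : ℂ) * pt (p n (i : ℕ)) - z₀) := by ring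
          rw [this]; exact norm_sub_le _ _
        have h5' : ‖(δ n : ℂ) * pt (p n (i : ℕ)) - c t‖ < d / 4 := h5
        have h8 : 3 * d / 4 < ‖(δ n : ℂ) * pt (p n (i : ℕ)) - z₀‖ := by linarith
        have h9 : (δ n : ℂ) * pt (p n (i : ℕ)) - z₀ ≠ 0 := by
          intro h0; rw [h0, norm_zero] at h8; linarith
        show ‖(c t - z₀) / ((δ n : ℂ) * pt (p n (i : ℕ)) - z₀) - 1‖ < 1
        rw [div_sub_one h9, norm_div, div_lt_one (norm_pos_iff.2 h9)]
        have : c t - z₀ - ((δ n : ℂ) * pt (p n (i : ℕ)) - z₀) =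
          -((δ n : ℂ) * pt (p n (i : ℕ)) - c t) := by ring
        rw [this, norm_neg]
        linarith) (by simp) (by
        show c (s (N n)) - z₀ = c (s 0) - z₀
        rw [hsN, hs0]
        have : circ (2 * Real.pi) = circ 0 := by simp [circ]
        simp only [hc, this])
    rw [hsN, hs0] at hsl
    have h10 : L (2 * Real.pi) - L 0 = 0 := hsl.trans hsum
    exact loop_log_ne Φ L hL (fun t => hL' t) (sub_eq_zero.1 h10)
  refine subset_region hδ0 henc hKrp hKrc.isBounded hz₀K hcen ?_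
  intro w hw i
  have h5 := hclose i.val (ZMod.val_lt i) (s i.val) ⟨le_rfl, hsm (Nat.le_succ _)⟩
  rw [ZMod.natCast_zmod_val] at h5
  have h6 := hdist w hw (c (s i.val)) ⟨_, hsI _ (ZMod.val_lt i).le, rfl⟩
  have h7 := dist_triangle w ((δ n : ℂ) * pt (p n i)) (c (s i.val))
  rw [dist_comm w ((δ n : ℂ) * pt (p n i))] at h7
  have h5' : dist ((δ n : ℂ) * pt (p n i)) (c (s i.val)) < d / 4 := h5
  linarith

end Vale.Agent.P167.H490
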