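import Mathlib
import Vale.Agent.P153.R2.TOP.Log
import Vale.Agent.P167.E6.Defs

/-!
# P167, block E0b, part 1: continuous logarithms along a closed curve and angle sums of polygons
-/

open Set Topology Complex

namespace Vale.Agent.P167.H490

open Vale.Agent.P153.R2.Final (dom circ toC)

/-- Continuous functions without zeros on a simply connected locally path connected space have
continuous logarithms. -/
theorem exists_log {X : Type*} [TopologicalSpace X] [LocallyPathConnectedSpace X]
    [SimplyConnectedSpace X] (g : X → ℂ) (hg : Continuous g) (h0 : ∀ x, g x ≠ 0) :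
    ∃ L : X → ℂ, Continuous L ∧ ∀ x, exp (L x) = g x := by
  have hU : IsSimplyConnected (univ : Set X) := by
    have : SimplyConnectedSpace (univ : Set X) :=
      (Homeomorph.Set.univ X).toHomotopyEquiv.simplyConnectedSpace
    exact this
  obtain ⟨f, hf, hf'⟩ := Complex.exists_continuousOn_eqOn_exp_comp hU isOpen_univ
    hg.continuousOn (by rintro ⟨x, -, hx⟩; exact h0 x hx)
  exact ⟨f, continuousOn_univ.1 hf, fun x => hf' (mem_univ x)⟩

theorem continuous_toC : Continuous toC := by
  have : toC = fun z : ℝ × ℝ => (z.1 : ℂ) + z.2 * I := by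
    funext z
    apply Complex.ext <;> simp [toC]
  rw [this]
  fun_prop

theorem toC_injective : Function.Injective toC := by
  intro a b h
  have h1 := congrArg Complex.re h
  have h2 := congrArg Complex.im h
  exact Prod.ext h1 h2

theorem continuous_circ : Continuous circ := by
  unfold circ
  fun_prop

theorem circ_ne_zero (t : ℝ) : circ t ≠ 0 := by
  intro h
  have h1 : Real.cos t = 0 := congrArg Prod.fst h
  have h2 : Real.sin t = 0 := congrArg Prod.snd h
  have := Real.sin_sq_add_cos_sq t
  rw [h1, h2] at this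
  norm_num at this

/-- The index of the boundary curve of a Jordan domain around `Φ 0` is not zero. -/
theorem loop_log_ne (Φ : (ℝ × ℝ) ≃ₜ (ℝ × ℝ)) (L : ℝ → ℂ) (hL : Continuous L)
    (h : ∀ t, exp (L t) = toC (Φ (circ t)) - toC (Φ 0)) : L (2 * Real.pi) ≠ L 0 := by
  intro heq
  let Ψ : ℂ → ℂ := fun w =>
    toC (Φ.symm ((exp w + toC (Φ 0)).re, (exp w + toC (Φ 0)).im))
  have hΨc : Continuous Ψ := by
    refine continuous_toC.comp (Φ.symm.continuous.comp ?_)
    fun_prop
  have hΨ0 : ∀ w, Ψ w ≠ 0 := by
    intro w hw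
    have h1 : Φ.symm ((exp w + toC (Φ 0)).re, (exp w + toC (Φ 0)).im) = 0 := by
      apply toC_injective
      exact hw
    have h2 : ((exp w + toC (Φ 0)).re, (exp w + toC (Φ 0)).im) = Φ 0 := by
      have := congrArg Φ h1
      rwa [Homeomorph.apply_symm_apply] at this
    have h3 : (exp w).re = 0 := by
      have := congrArg Prod.fst h2
      simpa [toC] using this
    have h4 : (exp w).im = 0 := by
      have := congrArg Prod.snd h2
      simpa [toC] using this
    exact exp_ne_zero w (Complex.ext h3 h4)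
  obtain ⟨M, hM, hM'⟩ := exists_log Ψ hΨc hΨ0
  have key := P153.TOP.log_diff_const (A := (univ : Set ℝ)) isPreconnected_univ
    (F := fun t => M (L t)) (G := fun t : ℝ => I * (t : ℂ))
    (hM.comp hL).continuousOn (by fun_prop) (fun t _ => by
      show exp (M (L t)) = exp (I * (t : ℂ))
      rw [hM', show Ψ (L t) = toC (Φ.symm ((exp (L t) + toC (Φ 0)).re,
        (exp (L t) + toC (Φ 0)).im)) from rfl, h t, sub_add_cancel]
      have : ((toC (Φ (circ t))).re, (toC (Φ (circ t))).im) = Φ (circ t) := rfl
      rw [this, Homeomorph.symm_apply_apply, mul_comm, exp_mul_I]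
      apply Complex.ext <;> simp [toC, circ, Complex.cos_ofReal_re, Complex.sin_ofReal_re])
    (mem_univ (2 * Real.pi)) (mem_univ 0)
  simp only [heq] at key
  have h2 : I * ((2 * Real.pi : ℝ) : ℂ) = 0 := by
    have : ((0 : ℝ) : ℂ) = 0 := ofReal_zero
    rw [this] at key
    linear_combination -key
  have h3 : (2 * (Real.pi : ℂ)) * I = 0 := by
    push_cast at h2
    linear_combination h2
  exact Complex.two_pi_I_ne_zero h3

theorem log_sub_log {a b : ℂ} (ha : 0 < a.re) (hb : 0 < b.re) : log a - log b = log (a / b) := by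
  have ha0 : a ≠ 0 := fun h => by simp [h] at ha
  have hb0 : b ≠ 0 := fun h => by simp [h] at hb
  have h1 : exp (log a - log b) = a / b := by
    rw [exp_sub, exp_log ha0, exp_log hb0]
  rw [← h1, log_exp]
  · have h2 := (abs_lt.1 (Complex.abs_arg_lt_pi_div_two_iff.2 (Or.inl ha))).1
    have h3 := (abs_lt.1 (Complex.abs_arg_lt_pi_div_two_iff.2 (Or.inl hb))).2
    rw [sub_im, log_im, log_im]
    linarith
  · have h2 := (abs_lt.1 (Complex.abs_arg_lt_pi_div_two_iff.2 (Or.inl ha))).2
    have h3 := (abs_lt.1 (Complex.abs_arg_lt_pi_div_two_iff.2 (Or.inl hb))).1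
    rw [sub_im, log_im, log_im]
    linarith

theorem re_pos_of_norm {a : ℂ} (h : ‖a - 1‖ < 1) : 0 < a.re := by
  have h1 := (abs_le.1 (Complex.abs_re_le_norm (a - 1))).1
  rw [sub_re, one_re] at h1
  linarith

/-- The variation of the logarithm along a closed curve is the sum of the logarithms of the ratios of
the vertices of a polygon close to the curve. -/
theorem sum_log_eq (c L : ℝ → ℂ) (hc : Continuous c) (hL : Continuous L)
    (hexp : ∀ t, exp (L t) = c t) (N : ℕ) (hN : 0 < N) (q : ℕ → ℂ) (s : ℕ → ℝ) (hs : Monotone s)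
    (hq : ∀ i < N, ∀ t ∈ Icc (s i) (s (i + 1)), ‖c t / q i - 1‖ < 1)
    (hqN : q N = q 0) (hcN : c (s N) = c (s 0)) :
    L (s N) - L (s 0) = ∑ i ∈ Finset.range N, log (q (i + 1) / q i) := by
  have hq0 : ∀ i < N, q i ≠ 0 := by
    intro i hi h
    have := hq i hi (s i) ⟨le_rfl, hs (Nat.le_succ i)⟩
    rw [h] at this
    simp at this
  have hc0 : ∀ t, c t ≠ 0 := fun t => by rw [← hexp]; exact exp_ne_zero _
  have hstep : ∀ i < N, L (s (i + 1)) - L (s i) = log (c (s (i + 1)) / q i) -
      log (c (s i) / q i) := by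
    intro i hi
    have hre : ∀ t ∈ Icc (s i) (s (i + 1)), 0 < (c t / q i).re := fun t ht =>
      re_pos_of_norm (hq i hi t ht)
    have := P153.TOP.log_diff_const (A := Icc (s i) (s (i + 1))) isPreconnected_Icc
      (F := L) (G := fun t => log (c t / q i) + log (q i)) hL.continuousOn
      (ContinuousOn.add (ContinuousOn.clog (by fun_prop) fun t ht => Or.inl (hre t ht))
        continuousOn_const) (fun t ht => by
          show exp (L t) = exp (log (c t / q i) + log (q i))
          rw [exp_add, exp_log (div_ne_zero (hc0 t) (hq0 i hi)), exp_log (hq0 i hi), hexp,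
            div_mul_cancel₀ _ (hq0 i hi)])
      (right_mem_Icc.2 (hs (Nat.le_succ i))) (left_mem_Icc.2 (hs (Nat.le_succ i)))
    linear_combination this
  have hA : ∀ i ≤ N, 0 < (c (s i) / q i).re := by
    intro i hi
    rcases lt_or_eq_of_le hi with h | h
    · exact re_pos_of_norm (hq i h (s i) ⟨le_rfl, hs (Nat.le_succ i)⟩)
    · rw [h, hcN, hqN]
      exact re_pos_of_norm (hq 0 hN (s 0) ⟨le_rfl, hs (Nat.le_succ 0)⟩)
  have hB : ∀ i < N, log (c (s (i + 1)) / q i) - log (c (s (i + 1)) / q (i + 1)) =
      log (q (i + 1) / q i) := by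
    intro i hi
    rw [log_sub_log (re_pos_of_norm (hq i hi (s (i + 1)) ⟨hs (Nat.le_succ i), le_rfl⟩))
      (hA (i + 1) hi)]
    congr 1
    have h1 : q (i + 1) ≠ 0 := by
      intro h
      have := hA (i + 1) hi
      rw [h] at this
      simp at this
    field_simp [hc0, hq0 i hi, h1]
  have hsum : L (s N) - L (s 0) = ∑ i ∈ Finset.range N, (L (s (i + 1)) - L (s i)) := by
    rw [Finset.sum_range_sub (fun i => L (s i))]
  have hsum2 : ∑ i ∈ Finset.range N, (log (c (s (i + 1)) / q (i + 1)) - log (c (s i) / q i)) = 0 := by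
    rw [Finset.sum_range_sub (fun i => log (c (s i) / q i)), hcN, hqN, sub_self]
  rw [hsum, ← sub_zero (∑ i ∈ Finset.range N, (L (s (i + 1)) - L (s i))), ← hsum2,
    ← Finset.sum_sub_distrib]
  refine Finset.sum_congr rfl fun i hi => ?_
  have hi' := Finset.mem_range.1 hi
  rw [hstep i hi', ← hB i hi']
  ring

end Vale.Agent.P167.H490
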