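import Vale.Agent.P167.H490.Log1

/-!
# P167, block E0b, part 2: the angle sum of a lattice polygon around a point which is not enclosed
-/

open Set Topology Complex

namespace Vale.Agent.P167.H490

open Vale.Agent.P167.E6

/-- The offset of the faces around a vertex. -/
def off (r : Fin 4) : ℤ × ℤ := ![(0, 0), (-1, 0), (-1, -1), (0, -1)] r

theorem face_eq (v : ℤ × ℤ) (r : Fin 4) : face v r = v + off r := rfl

theorem off_dir (r : Fin 4) : off (r - 1) - off (r + 2) = dir r := by
  fin_cases r <;> rfl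

theorem dir_opp (r : Fin 4) : dir (r + 2) = - dir r := by
  fin_cases r <;> rfl

/-- The logarithm of the ratio of two vertices seen from `z`. -/
noncomputable def th (δ : ℝ) (z : ℂ) (v w : ℤ × ℤ) : ℂ :=
  log (((δ : ℂ) * pt w - z) / ((δ : ℂ) * pt v - z))

/-- The closed face. -/
def cface (δ : ℝ) (f : ℤ × ℤ) : Set ℂ :=
  {z | δ * f.1 ≤ z.re ∧ z.re ≤ δ * (f.1 + 1) ∧ δ * f.2 ≤ z.im ∧ z.im ≤ δ * (f.2 + 1)}

theorem mem_region {δ : ℝ} {S : Finset (ℤ × ℤ)} {z : ℂ} :
    z ∈ region δ S ↔ ∃ f ∈ S, z ∈ cface δ f := Iff.rfl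

/-- The corners of a face seen from an exterior point lie in a half-plane. -/
theorem half {δ : ℝ} (hδ : 0 < δ) {f : ℤ × ℤ} {z : ℂ} (hz : z ∉ cface δ f) :
    ∃ u : ℂ, u ≠ 0 ∧ ∀ r : Fin 4, 0 < (((δ : ℂ) * pt (f - off r) - z) * u).re := by
  have hre : ∀ v : ℤ × ℤ, ((δ : ℂ) * pt v - z).re = δ * v.1 - z.re := by
    intro v; simp [pt]
  have him : ∀ v : ℤ × ℤ, ((δ : ℂ) * pt v - z).im = δ * v.2 - z.im := by
    intro v; simp [pt]
  have h1 : ∀ r : Fin 4, (f.1 : ℝ) ≤ ((f - off r).1 : ℝ) ∧ ((f - off r).1 : ℝ) ≤ f.1 + 1 ∧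
      (f.2 : ℝ) ≤ ((f - off r).2 : ℝ) ∧ ((f - off r).2 : ℝ) ≤ f.2 + 1 := by
    intro r
    fin_cases r <;> simp [off]
  by_cases a : z.re < δ * f.1
  · refine ⟨1, one_ne_zero, fun r => ?_⟩
    rw [mul_one, hre]
    have := mul_le_mul_of_nonneg_left (h1 r).1 hδ.le
    linarith
  by_cases b : δ * (f.1 + 1) < z.re
  · refine ⟨-1, by norm_num, fun r => ?_⟩
    rw [mul_neg_one, neg_re, hre]
    have := mul_le_mul_of_nonneg_left (h1 r).2.1 hδ.le
    linarith
  by_cases c : z.im < δ * f.2
  · refine ⟨-I, by simp, fun r => ?_⟩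
    have : (((δ : ℂ) * pt (f - off r) - z) * -I).re = δ * (f - off r).2 - z.im := by
      rw [← him]; simp
    rw [this]
    have := mul_le_mul_of_nonneg_left (h1 r).2.2.1 hδ.le
    linarith
  by_cases d : δ * (f.2 + 1) < z.im
  · refine ⟨I, by simp, fun r => ?_⟩
    have : (((δ : ℂ) * pt (f - off r) - z) * I).re = z.im - δ * (f - off r).2 := by
      have := him (f - off r)
      rw [mul_I_re, this]; ring
    rw [this]
    have := mul_le_mul_of_nonneg_left (h1 r).2.2.2 hδ.le
    linarith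
  exact absurd ⟨not_lt.1 a, not_lt.1 b, not_lt.1 c, not_lt.1 d⟩ hz

theorem th_eq {δ : ℝ} {z u : ℂ} (hu : u ≠ 0) {v w : ℤ × ℤ}
    (hv : 0 < (((δ : ℂ) * pt v - z) * u).re) (hw : 0 < (((δ : ℂ) * pt w - z) * u).re) :
    th δ z v w = log (((δ : ℂ) * pt w - z) * u) - log (((δ : ℂ) * pt v - z) * u) := by
  rw [log_sub_log hw hv, th, mul_div_mul_right _ _ hu]

/-- The angle sum around a face vanishes for exterior points. -/
theorem sum_face {δ : ℝ} (hδ : 0 < δ) {f : ℤ × ℤ} {z : ℂ} (hz : z ∉ cface δ f) :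
    ∑ r : Fin 4, th δ z (f - off r) (f - off r + dir r) = 0 := by
  obtain ⟨u, hu, h⟩ := half hδ hz
  have hn : ∀ r : Fin 4, f - off r + dir r = f - off (r + 1) := by
    intro r
    have : dir r = off r - off (r + 1) := by fin_cases r <;> rfl
    rw [this]; abel
  have : ∀ r : Fin 4, th δ z (f - off r) (f - off r + dir r) =
      log (((δ : ℂ) * pt (f - off (r + 1)) - z) * u) - log (((δ : ℂ) * pt (f - off r) - z) * u) := by
    intro r
    rw [hn, th_eq hu (h r) (h (r + 1))]
  simp only [this, Fin.sum_univ_four, Fin.reduceAdd, Fin.isValue]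
  ring

theorem th_neg {δ : ℝ} (hδ : 0 < δ) {f : ℤ × ℤ} {z : ℂ} (hz : z ∉ cface δ f) (r : Fin 4) :
    th δ z (f - off r + dir r) (f - off r) = - th δ z (f - off r) (f - off r + dir r) := by
  obtain ⟨u, hu, h⟩ := half hδ hz
  have hn : f - off r + dir r = f - off (r + 1) := by
    have : dir r = off r - off (r + 1) := by fin_cases r <;> rfl
    rw [this]; abel
  rw [hn, th_eq hu (h r) (h (r + 1)), th_eq hu (h (r + 1)) (h r)]
  ring

/-- The neighbour of the face `f` across its side `r`. -/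
def adj (f : ℤ × ℤ) (r : Fin 4) : ℤ × ℤ := face (f - off r) (r - 1)

theorem adj_vtx (f : ℤ × ℤ) (r : Fin 4) : adj f r - off (r + 2) = f - off r + dir r := by
  rw [adj, face_eq, ← off_dir]; abel

theorem adj_adj (f : ℤ × ℤ) (r : Fin 4) : adj (adj f r) (r + 2) = f := by
  rw [adj, adj_vtx, face_eq]
  have : r + 2 - 1 = r + 1 := by fin_cases r <;> rfl
  rw [this]
  have h2 : dir r = off r - off (r + 1) := by fin_cases r <;> rfl
  rw [h2]; abel

/-- The angle sum of the boundary of a set of faces around a point which is not in these faces. -/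
theorem sum_boundary {δ : ℝ} (hδ : 0 < δ) (S : Finset (ℤ × ℤ)) {z : ℂ} (hz : z ∉ region δ S) :
    ∑ x ∈ (S ×ˢ (Finset.univ : Finset (Fin 4))).filter (fun x => adj x.1 x.2 ∉ S),
      th δ z (x.1 - off x.2) (x.1 - off x.2 + dir x.2) = 0 := by
  classical
  have hz' : ∀ f ∈ S, z ∉ cface δ f := fun f hf h => hz ⟨f, hf, h⟩
  have htot : ∑ x ∈ S ×ˢ (Finset.univ : Finset (Fin 4)),
      th δ z (x.1 - off x.2) (x.1 - off x.2 + dir x.2) = 0 := by
    rw [Finset.sum_product]
    exact Finset.sum_eq_zero fun f hf => sum_face hδ (hz' f hf)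
  have hin : ∑ x ∈ (S ×ˢ (Finset.univ : Finset (Fin 4))).filter (fun x => adj x.1 x.2 ∈ S),
      th δ z (x.1 - off x.2) (x.1 - off x.2 + dir x.2) = 0 := by
    set T := (S ×ˢ (Finset.univ : Finset (Fin 4))).filter (fun x => adj x.1 x.2 ∈ S) with hT
    have hmem : ∀ x ∈ T, (adj x.1 x.2, x.2 + 2) ∈ T := by
      intro x hx
      simp only [hT, Finset.mem_filter, Finset.mem_product, Finset.mem_univ, and_true] at hx ⊢
      exact ⟨hx.2, by rw [adj_adj]; exact hx.1⟩
    have hfix : ∀ x : (ℤ × ℤ) × Fin 4,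
        (adj (adj x.1 x.2) (x.2 + 2), x.2 + 2 + 2) = x := by
      intro x
      rw [adj_adj]
      have : x.2 + 2 + 2 = x.2 := by
        rcases x with ⟨f, r⟩
        fin_cases r <;> rfl
      rw [this]
    have h2 : ∑ x ∈ T, th δ z (x.1 - off x.2) (x.1 - off x.2 + dir x.2) =
        ∑ x ∈ T, th δ z (adj x.1 x.2 - off (x.2 + 2))
          (adj x.1 x.2 - off (x.2 + 2) + dir (x.2 + 2)) := by
      refine Finset.sum_nbij' (fun x => (adj x.1 x.2, x.2 + 2)) (fun x => (adj x.1 x.2, x.2 + 2))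
        hmem hmem (fun x _ => hfix x) (fun x _ => hfix x) (fun x _ => ?_)
      have e1 : adj (adj x.1 x.2) (x.2 + 2) = x.1 := adj_adj _ _
      have e2 : x.2 + 2 + 2 = x.2 := congrArg Prod.snd (hfix x)
      show th δ z (x.1 - off x.2) (x.1 - off x.2 + dir x.2) =
        th δ z (adj (adj x.1 x.2) (x.2 + 2) - off (x.2 + 2 + 2))
          (adj (adj x.1 x.2) (x.2 + 2) - off (x.2 + 2 + 2) + dir (x.2 + 2 + 2))
      rw [e1, e2]
    have h3 : ∑ x ∈ T, th δ z (adj x.1 x.2 - off (x.2 + 2))
          (adj x.1 x.2 - off (x.2 + 2) + dir (x.2 + 2)) =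
        - ∑ x ∈ T, th δ z (x.1 - off x.2) (x.1 - off x.2 + dir x.2) := by
      rw [← Finset.sum_neg_distrib]
      refine Finset.sum_congr rfl fun x hx => ?_
      have hxS : x.1 ∈ S := by
        simp only [hT, Finset.mem_filter, Finset.mem_product] at hx
        exact hx.1.1
      rw [adj_vtx, dir_opp, add_neg_cancel_right, th_neg hδ (hz' _ hxS)]
    have h4 := h2.trans h3
    have : (2 : ℂ) * ∑ x ∈ T, th δ z (x.1 - off x.2) (x.1 - off x.2 + dir x.2) = 0 := by
      linear_combination h4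
    simpa using this
  rw [← Finset.sum_filter_add_sum_filter_not _ (fun x => adj x.1 x.2 ∈ S)] at htot
  rw [hin, zero_add] at htot
  exact htot

/-- The angle sum of the polygon around a point which is not enclosed. -/
theorem sum_polygon {δ : ℝ} (hδ : 0 < δ) {n : ℕ} (p : ZMod n → ℤ × ℤ) (S : Finset (ℤ × ℤ))
    (hp : IsPolygon p) (hS : Encloses p S) {z : ℂ} (hz : z ∉ region δ S) :
    ∑ i ∈ Finset.range n, th δ z (p i) (p (i + 1 : ℕ)) = 0 := by
  classical
  have hn : n ≠ 0 := by have := hp.1; omega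
  have : NeZero n := ⟨hn⟩
  have h1 : ∑ i ∈ Finset.range n, th δ z (p i) (p (i + 1 : ℕ)) =
      ∑ i : ZMod n, th δ z (p i) (p (i + 1)) := by
    refine Finset.sum_nbij' (fun i : ℕ => (i : ZMod n)) (fun i : ZMod n => i.val) ?_ ?_ ?_ ?_ ?_
    · intro i _; exact Finset.mem_univ _
    · intro i _; exact Finset.mem_range.2 (ZMod.val_lt i)
    · intro i hi; exact ZMod.val_cast_of_lt (Finset.mem_range.1 hi)
    · intro i _; exact ZMod.natCast_zmod_val i
    · intro i _; push_cast; rfl
  rw [h1, ← sum_boundary hδ S hz]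
  choose r hr using hp.2.2
  refine Finset.sum_bij' (fun i _ => (face (p i) (r i), r i))
    (fun x hx => Classical.choose ((hS (x.1 - off x.2) x.2).2 (by
      simp only [Finset.mem_filter, Finset.mem_product, Finset.mem_univ, and_true] at hx
      refine ⟨?_, ?_⟩
      · rw [face_eq, sub_add_cancel]; exact hx.1
      · exact hx.2))) ?_ ?_ ?_ ?_ ?_
  · intro i _
    have := (hS (p i) (r i)).1 ⟨i, rfl, hr i⟩
    simp only [Finset.mem_filter, Finset.mem_product, Finset.mem_univ, and_true]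
    refine ⟨this.1, ?_⟩
    rw [adj, face_eq (p i) (r i), add_sub_cancel_right]
    exact this.2
  · intro x hx; exact Finset.mem_univ _
  · intro i hi
    have hx : (face (p i) (r i), r i) ∈ (S ×ˢ (Finset.univ : Finset (Fin 4))).filter
        (fun x => adj x.1 x.2 ∉ S) := by
      have := (hS (p i) (r i)).1 ⟨i, rfl, hr i⟩
      simp only [Finset.mem_filter, Finset.mem_product, Finset.mem_univ, and_true]
      refine ⟨this.1, ?_⟩
      rw [adj, face_eq (p i) (r i), add_sub_cancel_right]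
      exact this.2
    apply hp.2.1
    have hsp := Classical.choose_spec ((hS ((face (p i) (r i), r i).1 - off (face (p i) (r i), r i).2)
      (face (p i) (r i), r i).2).2 (by
      simp only [Finset.mem_filter, Finset.mem_product, Finset.mem_univ, and_true] at hx
      refine ⟨?_, ?_⟩
      · rw [face_eq, sub_add_cancel]; exact hx.1
      · exact hx.2))
    refine hsp.1.trans ?_
    show face (p i) (r i) - off (r i) = p i
    rw [face_eq, add_sub_cancel_right]
  · intro x hx
    have hsp := Classical.choose_spec ((hS (x.1 - off x.2) x.2).2 (by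
      simp only [Finset.mem_filter, Finset.mem_product, Finset.mem_univ, and_true] at hx
      refine ⟨?_, ?_⟩
      · rw [face_eq, sub_add_cancel]; exact hx.1
      · exact hx.2))
    set i := Classical.choose ((hS (x.1 - off x.2) x.2).2 (by
      simp only [Finset.mem_filter, Finset.mem_product, Finset.mem_univ, and_true] at hx
      refine ⟨?_, ?_⟩
      · rw [face_eq, sub_add_cancel]; exact hx.1
      · exact hx.2)) with hi
    have hri : r i = x.2 := by
      have h2 := hr i
      rw [hsp.2, hsp.1] at h2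
      have h3 := add_left_cancel h2
      have hinj : Function.Injective dir := by decide
      exact (hinj h3).symm
    rw [hri, hsp.1, face_eq, sub_add_cancel]
  · intro i _
    show th δ z (p i) (p (i + 1)) = th δ z (face (p i) (r i) - off (r i))
      (face (p i) (r i) - off (r i) + dir (r i))
    rw [face_eq, add_sub_cancel_right, ← hr i]

end Vale.Agent.P167.H490
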